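import Crest.Agent.X212.An.Loc

/-!
# Row 212, INST (helper75): transport of terms: inverse relation, vanishing, dependence on the line map
-/

set_option autoImplicit false
set_option linter.unusedSectionVars false
noncomputable section
open scoped Manifold ContDiff Topology
open Set Function

namespace Crest.Agent.X212.Nat75
open An Wrd81 Eqv71 Cnt93

section syn
variable {M M' lam lam' : Type} [Fintype lam] [Fintype lam'] {r n : ℕ} {O : Set M}
  {v : M → CL (Eu lam) (Eu lam')}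

theorem rel_tc {t : Tp M M' lam lam'} (h : t.Rel O v) (T : Tc M lam r) : TcR O t.p v T (t.tc T) := by
  obtain ⟨m, k, w, ξ⟩ := T
  refine ⟨rfl, rfl, rfl, ?_⟩
  cases ξ
  exacts [.one, .aw (h.aw _), .qj (h.co _) (h.s _) (h.sw _) (h.sw _) (h.ll _)]

/-- `t` is a pull-back along `φ` -/
structure RelI (t : Tp M' M lam' lam) (O : Set M) (φ : M → M') (v : M → CL (Eu lam) (Eu lam')) :
    Prop where
  f : ∀ g, FR O φ (t.f g) g
  s : ∀ g, SR O φ v (t.s g) g

theorem fa₂ {α β : Type} {R : β → α → Prop} {g : α → β} (h : ∀ a, R (g a) a) (l : List α) :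
    List.Forall₂ R (l.map g) l := List.forall₂_map_left_iff.2 (List.forall₂_same.2 fun a _ => h a)

namespace RelI
variable {t : Tp M' M lam' lam} {φ : M → M'} (h : RelI t O φ v)
include h

theorem sw (u : SW M') : SWR O φ (u.map t.lt) u := fa₂ (fun a => by
  cases a
  exacts [.mul (h.f _), .cl (h.f _), .im, .G]) u

theorem ll (l : List (La M')) : List.Forall₂ (LaR O φ) (l.map t.la) l := fa₂ (fun a => by
  cases a
  exacts [.mul (h.f _), .G]) l

theorem aw (ξ : AW M') : AWR O φ (t.aw ξ) ξ := by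
  obtain ⟨s, l⟩ := ξ
  refine ⟨?_, h.ll l⟩
  cases s
  exacts [.q (h.sw _) (h.sw _), .cv (h.f _) (h.f _) (h.f _)]

theorem sg (g : Sg M' lam') : SgR O φ v (t.sg g) g := ⟨h.s _, h.sw _, h.sw _⟩

theorem co (d : Co M' lam' r) : CoR O φ v (t.co d) d := by
  cases d
  exacts [.z _, .s (h.sg _) (fa₂ h.sg _)]

theorem tm (T : Tm M' lam' r n) : TmR O φ v (t.tm T) T := by
  cases T
  exacts [.lin (h.sw _), .anti (h.co _) (h.s _) (h.sw _), .ad (h.f _) (h.f _) (h.aw _),
    .adj (h.co _) (h.s _) (h.f _) (h.f _) (h.sw _) (h.sw _) (h.ll _),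
    .adn _ (h.f _) (h.f _) (h.f _) (fa₂ h.aw _), .cut _ _ (h.sg _), .cz _ _ _]

theorem tc (T : Tc M' lam' r) : TcR O φ v (t.tc T) T := by
  obtain ⟨m, k, w, ξ⟩ := T
  refine ⟨rfl, rfl, rfl, ?_⟩
  cases ξ
  exacts [.one, .aw (h.aw _), .qj (h.co _) (h.s _) (h.sw _) (h.sw _) (h.ll _)]

end RelI

variable {t : Tp M M' lam lam'} {τ : Tm M lam r n}

theorem bas_tm (h : Bas τ) : Bas (t.tm τ) := by
  cases τ with
  | ad g g' ξ => exact let ⟨_, _, e⟩ := h; ⟨_, _, congrArg (List.map t.la) e⟩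
  | adn => exact h
  | _ => trivial

theorem van_tm {O' : Set M'} (hf : ∀ g, (∀ x ∈ O, g x = 0) → ∀ y ∈ O', t.f g y = 0)
    (hs : ∀ g, (∀ x ∈ O, g x = 0) → ∀ y ∈ O', t.s g y = 0) (h : τ.Van O) : (t.tm τ).Van O' := by
  have k : ∀ d : Co M lam r, d.Van O → (t.co d).Van O' := fun d hd => by
    cases d
    exacts [hd, hs _ hd]
  cases τ with
  | lin u =>
    obtain ⟨f, w, rfl, h⟩ := h
    exact ⟨_, _, rfl, hf f h⟩
  | anti => exact h.imp (hs _) (k _)
  | ad => exact hf _ h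
  | adj => exact h.imp (hf _) (k _)
  | adn => exact hf _ h
  | cut => exact hs _ h
  | cz => exact h

end syn

variable {E : Type} [NormedAddCommGroup E] [NormedSpace ℝ E] [FiniteDimensional ℝ E]
  [MeasurableSpace E] [BorelSpace E]
  {HM : Type} [TopologicalSpace HM] {I : ModelWithCorners ℝ E HM} [I.Boundaryless]
  {M : Type} [TopologicalSpace M] [ChartedSpace HM M] [IsManifold I ∞ M]
  [MeasurableSpace M] [T2Space M] [BorelSpace M] [SecondCountableTopology M]
  {E' : Type} [NormedAddCommGroup E'] [NormedSpace ℝ E'] [FiniteDimensional ℝ E']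
  [MeasurableSpace E'] [BorelSpace E']
  {HM' : Type} [TopologicalSpace HM'] {I' : ModelWithCorners ℝ E' HM'} [I'.Boundaryless]
  {M' : Type} [TopologicalSpace M'] [ChartedSpace HM' M'] [IsManifold I' ∞ M']
  [MeasurableSpace M'] [T2Space M'] [BorelSpace M'] [SecondCountableTopology M']
  {lam lam' : Type} [Fintype lam] [Fintype lam'] {r n : ℕ} {Ω : Set M} {Ω' : Set M'}

theorem in_of (φ : PartialDiffeomorph I I' M M' ∞) {v : M → CL (Eu lam) (Eu lam')}
    (hv : ContMDiff I 𝓘(ℝ, CL (Eu lam) (Eu lam')) ∞ v) (hΩ : φ.source = univ) (h : MapsTo φ Ω Ω') :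
    (Tp.of φ.toPartialEquiv v).In I I' Ω Ω' :=
  have k := Tp.in_of (Ω := Ω) φ hv.contMDiffOn (hΩ ▸ subset_univ _)
  ⟨h, fun g hg => (k.f g hg).mono h.image_subset, fun g hg =>
    ⟨(k.s g hg).sm, (k.s g hg).hcs, (k.s g hg).sub.trans h.image_subset⟩⟩

section congr
variable {φ : PartialEquiv M M'} {v v' : M → CL (Eu lam) (Eu lam')} (h : EqOn v v' Ω)
include h

theorem s_congr {g : M → Eu lam} (hg : Tv I Ω g) : (Tp.of φ v).s g = (Tp.of φ v').s g :=
  congrArg φ.target.indicator (funext fun y => by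
    by_cases k : φ.symm y ∈ Ω
    · rw [h k]
    · rw [image_eq_zero_of_notMem_tsupport fun e => k (hg.sub e), map_zero, map_zero])

theorem sg_congr {g : Sg M lam} (hg : SgIn I Ω g) : (Tp.of φ v).sg g = (Tp.of φ v').sg g :=
  congrArg (Sg.mk · _ _) (s_congr h hg.1)

theorem co_congr {d : Co M lam r} (hd : CoIn I Ω d) : (Tp.of φ v).co d = (Tp.of φ v').co d := by
  cases d
  exacts [rfl, congrArg₂ Co.s (sg_congr h hd.1) (List.map_congr_left fun g k => sg_congr h (hd.2 g k))]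

theorem tm_congr {τ : Tm M lam r n} (k : TmIn I Ω τ) : (Tp.of φ v).tm τ = (Tp.of φ v').tm τ := by
  cases τ with
  | anti => exact congrArg₂ (Tm.anti · · _) (co_congr h k.1) (s_congr h k.2.1)
  | adj => exact congrArg₂ (Tm.adj · · _ _ _ _ _) (co_congr h k.1) (s_congr h k.2.1)
  | cut => exact congrArg _ (sg_congr h k)
  | _ => rfl

theorem tc_congr {T : Tc M lam r} (k : XiIn I Ω T.ξ) : (Tp.of φ v).tc T = (Tp.of φ v').tc T := by
  obtain ⟨m, j, w, ξ⟩ := T
  refine congrArg (Tc.mk m j w) ?_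
  cases ξ
  exacts [rfl, rfl, congrArg₂ (Xi.qj · · _ _ _) (co_congr h k.1) (s_congr h k.2.1)]

end congr

end Crest.Agent.X212.Nat75
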