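import Crest.Agent.X212.Ins26.Defs
import Crest.Agent.X212.Jb7.Ops
import Crest.Agent.X212.Ins30.Alg

/-!
# Row 212, INST (helper75): cells of families, fewer cells and more terms, change of coordinates
-/

set_option autoImplicit false
set_option linter.unusedSectionVars false
noncomputable section
open scoped Manifold ContDiff Topology
open Set Function

namespace Crest.Agent.X212.Nat75
open An M G75 Jb7 Wrd81 Ins26
open An.Job (cl sp)

variable {κ lam : Type} [Fintype κ] [Fintype lam] [DecidableEq lam] {Lm : LM κ lam}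
  {S S' : Scene Lm} {j N : ℕ} {T : ℝ}

/-- the cell at the bottom of the soft coordinate -/
abbrev ce0 (τ : Finset S.A) : Cel (S.A ⊕ Unit) := cel τ (some false)

section cell
variable {σ τ : Finset S.A} {o o' : Option Bool} {a : S.A} {s : S.A ⊕ Unit → ℝ}

theorem cel_none : cel σ o (.inl a) = none ↔ a ∈ σ := Ins30.ce_none (β := fun _ : Unit => o)

theorem cel_inj (h : cel σ o = cel τ o') : σ = τ :=
  Finset.ext fun _ => by rw [← cel_none (o := o), h, cel_none]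

theorem mem_sp : s ∈ sp (ce0 τ) ↔ (∀ a ∉ τ, s (.inl a) = 0) ∧ ∀ u, s (.inr u) = 0 := by
  refine ⟨fun h => ⟨fun a ha => h (.inl a) false (if_neg ha), fun u => h (.inr u) false rfl⟩, ?_⟩
  rintro h (a | u) b e
  · by_cases k : a ∈ τ
    · cases (cel_none.2 k).symm.trans e
    · cases (if_neg k).symm.trans e
      exact h.1 a k
  · cases e
    exact h.2 u

variable {F : Fam S j N} (hF : F.OK T) {i : S.L}
include hF

theorem erase_mem (h : cel σ o ∈ F.𝒦 i) (a : S.A) : cel (σ.erase a) o ∈ F.𝒦 i := by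
  by_cases k : a ∈ σ
  · have := (hF.ok i ⟨_, h⟩).down _ h (.inl a, false) ((F.job i).mem_wb.2 ⟨cel_none.2 k, nofun⟩)
    exact (Ins30.ce_erase σ (fun _ : Unit => o) a).subst (motive := (· ∈ F.𝒦 i)) this
  · rwa [Finset.erase_eq_of_notMem k]

theorem cell_hard (h : cel τ o ∈ F.𝒦 i) (ha : a ∈ τ) : a ∈ hard S F.X :=
  let ⟨_, _, e, k, _⟩ := hF.cell i _ h; k (cel_inj e ▸ ha :)

theorem cell_fz (ok : S.OK) (h : cel τ o ∈ F.𝒦 i) (ha : a ∈ τ) : a ∉ S.fz :=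
  let ⟨_, _, e, _, _, k, l, _⟩ := hF.cell i _ h
  Finset.disjoint_left.1 (ok.cell i _ k).2 (l (cel_inj e ▸ ha))

theorem mem_dom (h : ce0 τ ∈ F.𝒦 i) : s ∈ (F.job i).dom (ce0 τ) ↔ s ∈ sp (ce0 τ) ∧ ∀ a, s a ≤ 1 := by
  refine and_congr_right fun k => ⟨fun e => ?_, fun e a _ => e a⟩
  rintro (a | u)
  · by_cases ha : a ∈ τ
    exacts [Sk.le_one (S := F.sk i) (r := 0) (n := 0) ⟨k, e⟩ (cell_hard hF h ha),
      ((mem_sp.1 k).1 a ha).trans_le zero_le_one]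
  · exact ((mem_sp.1 k).2 u).trans_le zero_le_one

variable (ok : S.OK) (h : ce0 τ ∈ F.𝒦 i) (hs : s ∈ sp (ce0 τ))
include h hs

omit hF h in
theorem th_fz (ha : a ∈ S.fz) : ((F.job i).Θ s).2 a = F.Tf a 0 :=
  (thS_fz (H := hard S F.X) ha).trans (congrArg _ ((mem_sp.1 hs).2 _))

omit hF h in
theorem th_out (ha : a ∉ S.fz) (k : a ∉ τ) : ((F.job i).Θ s).2 a = 0 := by
  by_cases e : a ∈ hard S F.X
  exacts [(thS_H ha e).trans (rho_of_le ((mem_sp.1 hs).1 a k).le), thS_out ha e]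

include ok

omit hs in
theorem th_in (ha : a ∈ τ) : ((F.job i).Θ s).2 a = rho (s (.inl a)) :=
  thS_H (cell_fz hF ok h ha) (cell_hard hF h ha)

theorem inf_iff : a ∈ Sys.inf ((F.job i).Θ s).2 ↔ a ∈ τ ∧ rho (s (.inl a)) = 1 := by
  refine ⟨fun e => ?_, fun e => (th_in hF ok h e.1).trans e.2⟩
  have k : a ∈ τ := by_contra fun k => by
    by_cases l : a ∈ S.fz
    exacts [(hF.Tf a l 0).2.ne ((th_fz hs l).symm.trans e), zero_ne_one ((th_out hs l k).symm.trans e)]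
  exact ⟨k, (th_in hF ok h k).symm.trans e⟩

end cell

/-! ### fewer cells, more terms -/

section re
variable (F : Fam S j N) {W : Type} (𝒦 : S.L → Set (Cel (S.A ⊕ Unit)))
  (t : S.L → Tr W S.X.M (lam ⊕ lam) S.ls (S.A ⊕ Unit) (j + 1 + N) N)

/-- the job with other cells -/
@[reducible] def jk (i : S.L) : Job F.Wi (F.D.Λ i) (S.A ⊕ Unit) S.ls (j + 1 + N) N :=
  { F.job i with 𝒦 := 𝒦 i }

/-- the family with other cells and further terms -/
@[reducible] def re : Fam S j N :=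
  { F with Wi := F.Wi ⊕ W, 𝒦 := 𝒦, t := fun i => (F.t i).sum (t i) }

variable {F 𝒦 t}

theorem re_ok (hF : F.OK T) (sub : ∀ i, 𝒦 i ⊆ F.𝒦 i)
    (down : ∀ i, ∀ σ ∈ 𝒦 i, ∀ b ∈ (F.job i).wb σ, Job.fc σ b ∈ 𝒦 i)
    (tok : ∀ i, (𝒦 i).Nonempty → (jk F 𝒦 i).TOK (t i))
    (loc : ∀ i, (𝒦 i).Nonempty → (jk F 𝒦 i).TLoc (F.sk i).sh (t i))
    (van : ∀ i, ∀ σ' ∈ 𝒦 i, ∀ s ∈ cl σ', ∀ l : S.ls, s (.inl l) = 1 → ∀ w,
      ((t i).co w s ≠ 0 → TmIn S.X.I ((S.M.sys.w l).sd true) ((t i).tw w)) ∧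
      ∀ l' ≠ l, (t i).cc l' w s ≠ 0 → XiIn S.X.I ((S.M.sys.w l).sd true) ((t i).tc l' w).ξ)
    (twin : ∀ i (l : S.ls), ∀ σ' ∈ 𝒦 i, σ' ∈ 𝒦 (S.fl l i) → ∀ s ∈ cl σ', s (.inl l) = 1 → ∀ w,
      ((t (S.fl l i)).co w s = (t i).co w s ∧
        ((t i).co w s ≠ 0 → (t (S.fl l i)).tw w = (t i).tw w)) ∧
      ∀ l' ≠ l, (t (S.fl l i)).cc l' w s = (t i).cc l' w s ∧
        ((t i).cc l' w s ≠ 0 → (t (S.fl l i)).tc l' w = (t i).tc l' w)) : (re F 𝒦 t).OK T where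
  Tf := hF.Tf
  ok i h := by
    have a := hF.ok i (h.mono (sub i))
    have b : (jk F 𝒦 i).OK :=
      { a with
        down := down i
        soft := fun σ k => a.soft σ (sub i k)
        par := fun σ k => a.par σ (sub i k)
        inf := fun σ k => a.inf σ (sub i k)
        ct := fun σ k => a.ct σ (sub i k)
        tw := fun w => (a.tw w).imp fun _ e => ⟨e.1, e.2.imp fun _ e => ⟨e.1, fun σ k => e.2 σ (sub i k)⟩⟩
        tc := fun l w => (a.tc l w).imp fun _ e =>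
          ⟨e.1, e.2.imp fun _ e => ⟨e.1, fun σ k => e.2 σ (sub i k)⟩⟩ }
    exact (Job.put_ok b (b.tok.sum (tok i h)) :)
  loc i h := by
    have a := hF.loc i (h.mono (sub i))
    have b : (jk F 𝒦 i).Loc (F.sk i).sh :=
      { a with cc := fun σ k => a.cc σ (sub i k), co := fun σ k => a.co σ (sub i k) }
    exact (Job.put_loc b (b.tloc.sum (loc i h)) :)
  cell i σ k := hF.cell i σ (sub i k)
  rich i σ k s hs c e :=
    have a := hF.rich i σ (sub i k) s hs c e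
    have b : (F.t i).Le s ((F.t i).sum (t i)) s := Tr.Le.refl.inl
    ⟨b.richS a.1, fun π hπ => ⟨fun h => b.richT ((a.2 π hπ).1 h), fun l h => b.richC ((a.2 π hπ).2 l h)⟩⟩
  van i σ k s hs l e := Sum.rec (hF.van i σ (sub i k) s hs l e) (van i σ k s hs l e)
  twin i l σ k k' s hs e :=
    Sum.rec (hF.twin i l σ (sub i k) (sub _ k') s hs e) (twin i l σ k k' s hs e)

end re

/-! ### change of coordinates -/

variable {A₀ : Type} (f : A₀ ↪ S.A) (f' : A₀ ↪ S'.A)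

/-- the parameters of the matched walls -/
def tr (s : S.A ⊕ Unit → ℝ) : S'.A ⊕ Unit → ℝ :=
  Sum.elim (extend f' (fun a => s (.inl (f a))) 0) fun u => s (.inr u)

variable {f f'} {s : S.A ⊕ Unit → ℝ} {τ : Finset A₀}

theorem tr_f (a : A₀) : tr f f' s (.inl (f' a)) = s (.inl (f a)) :=
  f'.injective.extend_apply (fun a => s (.inl (f a))) 0 a

theorem tr_out {a : S'.A} (h : ¬∃ x, f' x = a) : tr f f' s (.inl a) = 0 :=
  extend_apply' (fun a => s (.inl (f a))) (0 : S'.A → ℝ) a h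

theorem tr_cases {P : S'.A ⊕ Unit → Prop} (h1 : ∀ a, P (.inl (f' a)))
    (h2 : ∀ a, (¬∃ x, f' x = a) → P (.inl a)) (h3 : ∀ u, P (.inr u)) : ∀ a, P a := by
  rintro (a | u)
  · by_cases k : ∃ x, f' x = a
    · obtain ⟨x, rfl⟩ := k
      exact h1 x
    · exact h2 a k
  · exact h3 u

theorem contDiff_tr : ContDiff ℝ ∞ (tr f f') := contDiff_pi.2 (tr_cases (f' := f')
  (fun a => by simp only [tr_f]; exact contDiff_apply ℝ ℝ _)
  (fun a h => by simp only [tr_out h]; exact contDiff_const) fun u =>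
    contDiff_apply ℝ ℝ (Sum.inr u : S.A ⊕ Unit))

theorem tr_all {P : ℝ → Prop} (h0 : P 0) (h : ∀ a, P (s a)) : ∀ a, P (tr f f' s a) :=
  tr_cases (f' := f') (fun a => tr_f (f := f) a ▸ h _) (fun _ k => tr_out (f := f) k ▸ h0) fun _ => h _

theorem tr_sp (h : s ∈ sp (ce0 (τ.map f))) : tr f f' s ∈ sp (ce0 (τ.map f')) := by
  refine mem_sp.2 ⟨fun a ha => ?_, (mem_sp.1 h).2⟩
  by_cases k : ∃ x, f' x = a
  · obtain ⟨x, rfl⟩ := k
    exact (tr_f x).trans ((mem_sp.1 h).1 _ (by simpa using ha))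
  · exact tr_out k

theorem tr_cl (h : s ∈ cl (ce0 (τ.map f))) : tr f f' s ∈ cl (ce0 (τ.map f')) :=
  ⟨tr_sp h.1, tr_all (P := (· ∈ Icc (0 : ℝ) 1)) ⟨le_rfl, zero_le_one⟩ h.2⟩

theorem tr_tr (h : s ∈ sp (ce0 (τ.map f))) : tr f' f (tr f f' s) = s :=
  funext (tr_cases (f' := f) (fun a => (tr_f a).trans (tr_f a)) (fun a k => (tr_out k).trans
    ((mem_sp.1 h).1 a fun e => let ⟨x, _, e⟩ := Finset.mem_map.1 e; k ⟨x, e⟩).symm) fun _ => rfl)

end Crest.Agent.X212.Nat75
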