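import Crest.Agent.X212.M.Wall

/-!
# Row 212, INST (helper75): regions and pieces along a correspondence of wall systems
-/

set_option autoImplicit false
set_option linter.unusedSectionVars false
noncomputable section
open Set Function

namespace Crest.Agent.X212.Nat75
open M

variable {X X' : Type} [TopologicalSpace X] [TopologicalSpace X'] {A A' A₀ : Type}

/-- the walls `f a` and `f' a` correspond under the surjection `φ` -/
structure SC (S : Sys X A) (S' : Sys X' A') (f : A₀ ↪ A) (f' : A₀ ↪ A') (φ : X → X') : Prop where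
  sur : Surjective φ
  sd : ∀ a b x, φ x ∈ (S'.w (f' a)).sd b ↔ x ∈ (S.w (f a)).sd b
  band : ∀ a x, φ x ∈ (S'.w (f' a)).band ↔ x ∈ (S.w (f a)).band

/-- pull-back of a region -/
def pl (f : A₀ ↪ A) (f' : A₀ ↪ A') (π : Reg A') : Reg A := extend f (fun a => π (f' a)) fun _ => none

variable {S : Sys X A} {S' : Sys X' A'} {f : A₀ ↪ A} {f' : A₀ ↪ A'} {φ : X → X'} {π : Reg A'}

theorem pl_f (a : A₀) : pl f f' π (f a) = π (f' a) := f.injective.extend_apply _ _ a

theorem pl_bd {a : A} (h : a ∈ Sys.bd (pl f f' π)) : ∃ x, f x = a :=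
  by_contra fun k => h (extend_apply' _ _ _ k)

namespace SC
variable (h : SC S S' f f' φ)
include h

theorem core (a : A₀) (x : X) : φ x ∈ (S'.w (f' a)).core ↔ x ∈ (S.w (f a)).core :=
  forall_congr' fun b => (h.sd a b x).not

theorem cmp (a b : A₀) : S'.Cmp (f' a) (f' b) ↔ S.Cmp (f a) (f b) := by
  simp only [Sys.Cmp, disjoint_left, h.sur.forall, h.band]

variable (hπ : Sys.bd π ⊆ range f')
include hπ

theorem U (x : X) : φ x ∈ S'.U π ↔ x ∈ S.U (pl f f' π) := by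
  refine ⟨fun k a b e => ?_, fun k a b e => ?_⟩
  · obtain ⟨a, rfl⟩ := pl_bd (Sys.mem_bd_of e)
    exact (h.sd a b x).1 (k _ b ((pl_f a).symm.trans e))
  · obtain ⟨a, rfl⟩ := hπ (Sys.mem_bd_of e)
    exact (h.sd a b x).2 (k _ b ((pl_f a).trans e))

theorem inn (a : A₀) : f' a ∈ S'.inn π ↔ f a ∈ S.inn (pl f f' π) := by
  refine and_congr (by rw [pl_f]) (and_congr ?_ ⟨fun k b e => ?_, fun k b e => ?_⟩)
  · simp only [subset_def, h.sur.forall, h.band, h.U hπ]
  · obtain ⟨b, rfl⟩ := pl_bd e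
    exact (h.cmp a b).1 (k _ fun e' => e ((pl_f b).trans e'))
  · obtain ⟨b, rfl⟩ := hπ e
    exact (h.cmp a b).2 (k _ fun e' => e ((pl_f b).symm.trans e'))

omit hπ in
theorem piece {c : Set A'} (hc : c ⊆ range f') (p : S'.Piece c π) :
    S.Piece (f '' (f' ⁻¹' c)) (pl f f' π) := by
  have hπ := p.bd_subset.trans hc
  have e : ∀ a, f a ∈ Sys.bd (pl f f' π) → f' a ∈ Sys.bd π := fun a k e => k ((pl_f a).trans e)
  refine ⟨⟨fun a ha b hb n => ?_, fun a b k x hx => ?_⟩, fun a ha => ?_, ?_⟩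
  · obtain ⟨a, rfl⟩ := pl_bd ha
    obtain ⟨b, rfl⟩ := pl_bd hb
    exact (h.cmp a b).1 (p.cell (e a ha) (e b hb) fun k => n (congrArg f (f'.injective k)))
  · obtain ⟨a, rfl⟩ := pl_bd (Sys.mem_bd_of k)
    exact (h.U hπ x).1 (p.adj _ b ((pl_f a).symm.trans k) ⟨(h.band a x).2 hx.1, (h.sd a b x).2 hx.2⟩)
  · obtain ⟨a, rfl⟩ := pl_bd ha
    exact ⟨a, p.bd_subset (e a ha), rfl⟩
  · rintro _ ⟨a, ha, rfl⟩ k
    exact p.not_inn _ ha ((h.inn hπ a).2 k)

end SC

end Crest.Agent.X212.Nat75
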