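import Crest.Agent.X212.Nat75.Fam
import Crest.Agent.X212.Nat75.Tp
import Crest.Agent.X212.Nat75.Reg
import Crest.Agent.X212.G75.Std

/-!
# Row 212, INST (helper75): the terms of a family are pushed along a diffeomorphism of scenes
-/

set_option autoImplicit false
set_option linter.unusedSectionVars false
noncomputable section
open scoped Manifold ContDiff Topology Matrix
open Set Function

namespace Crest.Agent.X212.Nat75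
open An M G75 Jb7 Wrd81 Ins26
open An.Job (cl sp)
open Line51 (rl Ln)

variable {κ lam : Type} [Fintype κ] [Fintype lam] [DecidableEq lam] {Lm : LM κ lam}

/-- a symmetric correspondence of scenes -/
structure Cx (S S' : Scene Lm) (A₀ L₀ : Type) where
  I : MId S.M S'.M A₀
  gl : I.Glob
  ι : L₀ ↪ S.L
  ι' : L₀ ↪ S'.L
  w : L₀ → S.X.M → Matrix lam lam ℂ
  lid : ∀ i, LId (S.N (ι i)) (S'.N (ι' i)) I univ (w i)
  η : S.ls ≃ S'.ls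
  ls : ∀ l : S.ls, ∃ a, I.f a = l ∧ I.f' a = η l
  fl : ∀ (l : S.ls) i, ∃ i₁, ι i₁ = S.fl l (ι i) ∧ ι' i₁ = S'.fl (η l) (ι' i) ∧
    EqOn (w i₁) (w i) ((S.M.sys.w l).sd true)

namespace Cx
variable {S S' : Scene Lm} {A₀ L₀ : Type} [Fintype A₀] (x : Cx S S' A₀ L₀) {j N : ℕ} {T : ℝ}

theorem src (y : S.X.M) : y ∈ x.I.ψ.source := x.gl.1 ▸ mem_univ y

theorem tgt (y : S'.X.M) : y ∈ x.I.ψ.target := x.gl.2 ▸ mem_univ y

theorem rinv (y : S'.X.M) : x.I.ψ (x.I.ψ.symm y) = y := x.I.ψ.right_inv (x.tgt y)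

theorem sc : SC S.M.sys S'.M.sys x.I.f x.I.f' x.I.ψ :=
  ⟨fun y => ⟨_, x.rinv y⟩, fun a b y => x.I.sd a b y (x.src y), fun a y => Met55.mem_band x.I a (x.src y)⟩

theorem sd_ls (l : S.ls) (b : Bool) (y : S.X.M) :
    x.I.ψ y ∈ (S'.M.sys.w (x.η l)).sd b ↔ y ∈ (S.M.sys.w l).sd b := by
  obtain ⟨a, h, h'⟩ := x.ls l
  rw [← h, ← h']
  exact x.sc.sd a b y

/-- the inverse -/
def symm : Cx S' S A₀ L₀ where
  I := x.I.symm
  gl := x.gl.symm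
  ι := x.ι'
  ι' := x.ι
  w i y := (x.w i (x.I.ψ.symm y))ᴴ
  lid i := x.gl.image ▸ (x.lid i).symm
  η := x.η.symm
  ls l := let ⟨a, h, h'⟩ := x.ls (x.η.symm l); ⟨a, h'.trans (by simp), h⟩
  fl l i := by
    obtain ⟨l, rfl⟩ := x.η.surjective l
    obtain ⟨i₁, h1, h2, h3⟩ := x.fl l i
    refine ⟨i₁, h2, by simpa using h1, fun y hy => congrArg (·ᴴ) (h3 ((x.sd_ls l true _).1 ?_))⟩
    rwa [x.rinv]

theorem nb {i : L₀} {β sg l2 : ℝ} (h : S.Nb (x.ι i) univ β sg l2) : S'.Nb (x.ι' i) univ β sg l2 := by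
  obtain ⟨ι, _, _, e, d, k, h1, h2, h3⟩ := h
  have hU : univ ⊆ x.I.ψ.source := fun y _ => x.src y
  have m := Dr59.pd_mp x.I.ψ hU
  have s := x.I.ori.mono hU
  have q := (S'.N (x.ι' i)).ok.mono (subset_univ (x.I.ψ '' univ))
  have a : (⟨fun z => (S'.N (x.ι' i)).p (x.I.ψ z), 0⟩ : Ln S.X.E S.X.M lam).On S.X.I univ :=
    (q.pull m).congr k.op (fun _ _ => rfl) fun y _ => (congrFun (Dr59.pm_zero _) y).symm
  have b := (S.N (x.ι i)).ok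
  refine ⟨ι, _, _, _, d, x.gl.image ▸ k.push x.I.ψ hU S'.M.ori s, ?_, h2,
    h3.trans (Finset.sum_congr rfl fun n _ => ?_)⟩
  · rw [h1, ← (LinearEquiv.ofBijective _ (Dr59.pd_st_bij (k := 1) x.I.ψ k.op hU)).finrank_eq, x.gl.image]
  · rw [(k.cs n).ip_psh x.I.ψ hU S'.M.ori k.ori s, (k.cs n).ip_congr (c := Dr59.pm _ _ x.I.ψ _)
      (c' := Ln.F S.X.I ⟨fun z => (S'.N (x.ι' i)).p (x.I.ψ z), 0⟩) fun y hy => by
        rw [← q.F_pull (Dr59.pd_open x.I.ψ k.op hU) k.op m hy]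
        exact a.F_congr k.op (fun _ _ => rfl) (fun y _ => congrFun (Dr59.pm_zero _) y) hy,
      (k.cs n).ip_coh k.ori (a.cl_F k.op).sm (b.cl_F k.op).sm (Line51.Uni.ex_F
        (L := ⟨(S.N (x.ι i)).p, 0⟩) (L' := ⟨fun z => (S'.N (x.ι' i)).p (x.I.ψ z), 0⟩) k.op (x.lid i).uni b a)]

theorem kz_eq (i : L₀) (j : ℕ) (n : ℤ) : kz S' (x.ι' i) j n = kz S (x.ι i) j n := by
  have h1 : S'.ls.card = S.ls.card := by
    rw [← Fintype.card_coe, ← Fintype.card_coe, Fintype.card_congr x.η]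
  have h2 : d0 S' (x.ι' i) = d0 S (x.ι i) := congrArg Classical.epsilon (funext fun _ => propext
    (exists₃_congr fun _ _ _ => and_congr_left' ⟨x.symm.nb, x.nb⟩))
  rw [kz, kz, h1, h2]

/-- the transport of data -/
def tp (i : L₀) : Tp S.X.M S'.X.M (lam ⊕ lam) (lam ⊕ lam) :=
  Tp.of x.I.ψ.toPartialEquiv fun y => rl (x.w i y)

theorem tp_in (i : L₀) {Ω Ω'} (h : MapsTo x.I.ψ Ω Ω') : (x.tp i).In S.X.I S'.X.I Ω Ω' :=
  in_of x.I.ψ (fun y => Line51.fsm_rl ((x.lid i).uni.sm y trivial)) x.gl.1 h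

theorem tp_rel (i : L₀) : (x.tp i).Rel univ fun y => rl (x.w i y) := Tp.rel_of _ fun y _ => x.src y

theorem tp_relI (i : L₀) : RelI (x.symm.tp i) univ x.I.ψ fun y => rl (x.w i y) where
  f g y _ := (indicator_of_mem (x.src y) (g ∘ x.I.ψ)).symm
  s g y _ := by
    have e : (x.symm.tp i).s g y = rl (x.w i y)ᴴ (g (x.I.ψ y)) :=
      (indicator_of_mem (x.src y) fun y => rl (x.w i (x.I.ψ.symm (x.I.ψ y)))ᴴ (g (x.I.ψ y))).trans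
        (by rw [show x.I.ψ.symm (x.I.ψ y) = y from x.I.ψ.left_inv (x.src y)])
    have k := (x.lid i).uni.iso y trivial
    rw [e, ← Line51.rl_ct, ← ContinuousLinearMap.comp_apply, ← ContinuousLinearMap.comp_apply,
      ← Line51.rl_comp, ← Line51.rl_comp, k.src, k.ct_left]

theorem tp_van (i : L₀) {O O'} (h : MapsTo x.I.ψ.symm O' O) {r n : ℕ} {τ : Tm S.X.M (lam ⊕ lam) r n}
    (k : τ.Van O) : ((x.tp i).tm τ).Van O' :=
  van_tm (fun _ e y hy => (indicator_of_mem (x.tgt y) _).trans (e _ (h hy)))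
    (fun g e y hy => (indicator_of_mem (x.tgt y) fun y => rl (x.w i (x.I.ψ.symm y)) (g (x.I.ψ.symm y))).trans
      ((congrArg (rl (x.w i (x.I.ψ.symm y))) (e _ (h hy))).trans (map_zero _))) k

/-- the pushed terms -/
def psh {W : Type} {r n : ℕ} (i : L₀) (t : Tr W S.X.M (lam ⊕ lam) S.ls (S.A ⊕ Unit) r n) :
    Tr W S'.X.M (lam ⊕ lam) S'.ls (S'.A ⊕ Unit) r n :=
  ⟨fun w => (x.tp i).tm (t.tw w), fun w s => t.co w (tr x.I.f' x.I.f s),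
    fun l w => (x.tp i).tc (t.tc (x.η.symm l) w), fun l w s => t.cc (x.η.symm l) w (tr x.I.f' x.I.f s)⟩

variable (F : Fam S j N) (F' : Fam S' j N)

/-- matched cells -/
structure Mc (i : L₀) (τ : Finset A₀) : Prop where
  l : ce0 (τ.map x.I.f) ∈ F.𝒦 (x.ι i)
  r : ce0 (τ.map x.I.f') ∈ F'.𝒦 (x.ι' i)

/-- the matched cells on the right -/
def K (i' : S'.L) : Set (Cel (S'.A ⊕ Unit)) :=
  {σ | ∃ i τ, x.ι' i = i' ∧ ce0 (τ.map x.I.f') = σ ∧ x.Mc F F' i τ}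

/-- the terms of `F` on the right -/
def t : S'.L → Tr F.Wi S'.X.M (lam ⊕ lam) S'.ls (S'.A ⊕ Unit) (j + 1 + N) N :=
  extend x.ι' (fun i => x.psh i (F.t (x.ι i))) fun _ => ⟨fun _ => z0, 0, fun _ _ => c0, 0⟩

/-- **the family `F'` with the terms of `F`** -/
@[reducible] def add : Fam S' j N := re F' (x.K F F') (x.t F)

theorem t_eq (i : L₀) : x.t F (x.ι' i) = x.psh i (F.t (x.ι i)) := x.ι'.injective.extend_apply _ _ i

variable {x F F'} {i : L₀} {τ : Finset A₀} {s s' : S'.A ⊕ Unit → ℝ}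

theorem mem_K {σ} : σ ∈ x.K F F' (x.ι' i) ↔ ∃ τ, ce0 (τ.map x.I.f') = σ ∧ x.Mc F F' i τ :=
  ⟨fun ⟨_, τ, e, h⟩ => ⟨τ, x.ι'.injective e ▸ h⟩, fun ⟨τ, h⟩ => ⟨i, τ, rfl, h⟩⟩

theorem Mc.symm (h : x.Mc F F' i τ) : x.symm.Mc F' F i τ := ⟨h.r, h.l⟩

variable (ok : S.OK) (ok' : S'.OK) (hF : F.OK T) (hF' : F'.OK T)
  (hH : ∀ a, x.I.f' a ∈ hard S' F'.X ↔ x.I.f a ∈ hard S F.X)
include hF hF'

theorem Mc.dom (h : x.Mc F F' i τ) (hs : s ∈ (F'.job (x.ι' i)).dom (ce0 (τ.map x.I.f'))) :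
    tr x.I.f' x.I.f s ∈ (F.job (x.ι i)).dom (ce0 (τ.map x.I.f)) :=
  (mem_dom hF h.l).2 ⟨tr_sp hs.1, tr_all (P := (· ≤ 1)) zero_le_one ((mem_dom hF' h.r).1 hs).2⟩

include hH in
theorem tok_aux (V : Set S.A) {g : (S.A ⊕ Unit → ℝ) → ℝ} (h : ∃ s₀ < (1 : ℝ), ∀ σ ∈ F.𝒦 (x.ι i),
      ∀ s ∈ (F.job (x.ι i)).dom σ, ∀ a y, (F.job (x.ι i)).hd a = some y → y ∈ V → s₀ ≤ s a → g s = 0) :
    ∃ V' : Set S'.A, MapsTo x.I.ψ (S.M.sys.cores ((F.job (x.ι i)).hw \ V))ᶜ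
        (S'.M.sys.cores ((F'.job (x.ι' i)).hw \ V'))ᶜ ∧ ∃ s₀ < (1 : ℝ), ∀ σ ∈ x.K F F' (x.ι' i),
      ∀ s ∈ (F'.job (x.ι' i)).dom σ, ∀ a y, (F'.job (x.ι' i)).hd a = some y → y ∈ V' → s₀ ≤ s a →
        g (tr x.I.f' x.I.f s) = 0 := by
  obtain ⟨s₀, h1, h2⟩ := h
  refine ⟨{a' | ∀ a, x.I.f' a = a' → x.I.f a ∈ V}, fun y hy k => ?_, max s₀ (1 / 2),
    max_lt h1 (by norm_num), fun σ hσ s hs a y e k l => ?_⟩
  · obtain ⟨a', ⟨k1, k2⟩, k3⟩ := mem_iUnion₂.1 k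
    simp only [mem_ofPred_eq, not_forall] at k2
    obtain ⟨a, rfl, k2⟩ := k2
    exact hy (mem_biUnion (show x.I.f a ∈ _ from ⟨(Sk.hw_eq (S := F.sk _) (r := 0) (n := 0)).ge ((hH a).1
      ((Sk.hw_eq (S := F'.sk _) (r := 0) (n := 0)).le k1)), k2⟩) ((x.sc.core a y).1 k3))
  · obtain ⟨τ, rfl, m⟩ := mem_K.1 hσ
    obtain ⟨e1, rfl⟩ := (Sk.hd_eq (S := F'.sk _) (r := 0) (n := 0)).1 e
    obtain ⟨a, -, rfl⟩ := Finset.mem_map.1 (by_contra fun n => by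
      linarith [(mem_sp.1 hs.1).1 y n, le_max_right s₀ (1 / 2)] : y ∈ τ.map x.I.f')
    exact h2 _ m.l _ (m.dom hF hF' hs) (.inl (x.I.f a)) _ ((Sk.hd_eq (S := F.sk _) (r := 0) (n := 0)).2
      ⟨(hH a).1 e1, rfl⟩) (k a rfl) (((le_max_left _ _).trans l).trans_eq (tr_f a).symm)

include ok ok'

theorem Mc.inf (h : x.Mc F F' i τ) (hs : s ∈ sp (ce0 (τ.map x.I.f'))) :
    Sys.inf ((F.job (x.ι i)).Θ (tr x.I.f' x.I.f s)).2 =
      x.I.f '' (x.I.f' ⁻¹' Sys.inf ((F'.job (x.ι' i)).Θ s).2) ∧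
    Sys.inf ((F'.job (x.ι' i)).Θ s).2 ⊆ range x.I.f' := by
  refine ⟨Set.ext fun a => (inf_iff hF ok h.l (tr_sp hs)).trans ⟨fun k => ?_, ?_⟩, fun a k => ?_⟩
  · obtain ⟨a, ha, rfl⟩ := Finset.mem_map.1 k.1
    exact ⟨a, (inf_iff hF' ok' h.r hs).2 ⟨Finset.mem_map_of_mem _ ha,
      (congrArg rho (tr_f a)).symm.trans k.2⟩, rfl⟩
  · rintro ⟨a, k, rfl⟩
    have := (inf_iff hF' ok' h.r hs).1 k
    exact ⟨by simpa using this.1, (congrArg rho (tr_f a)).trans this.2⟩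
  · obtain ⟨a, -, rfl⟩ := Finset.mem_map.1 ((inf_iff hF' ok' h.r hs).1 k).1
    exact ⟨a, rfl⟩

include hH

theorem loc_aux (h : x.Mc F F' i τ) (hs : s ∈ (F'.job (x.ι' i)).dom (ce0 (τ.map x.I.f')))
    (hs' : s' ∈ (F'.job (x.ι' i)).dom (ce0 (τ.map x.I.f'))) {c : S'.M.Cl}
    (e : Sys.inf ((F'.job (x.ι' i)).Θ s).2 = c.1) (e' : Sys.inf ((F'.job (x.ι' i)).Θ s').2 = c.1)
    {P : Set (Reg S'.A)} (hP : ∀ π ∈ P, S'.M.sys.Piece c.1 π)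
    (ag : (F'.job (x.ι' i)).Ag (F'.sk (x.ι' i)).sh (⋃ π ∈ P, S'.M.sys.inn π) s s') :
    ∃ (c₀ : S.M.Cl) (P₀ : Set (Reg S.A)), Sys.inf ((F.job (x.ι i)).Θ (tr x.I.f' x.I.f s)).2 = c₀.1 ∧
      Sys.inf ((F.job (x.ι i)).Θ (tr x.I.f' x.I.f s')).2 = c₀.1 ∧ (∀ π ∈ P₀, S.M.sys.Piece c₀.1 π) ∧
      (F.job (x.ι i)).Ag (F.sk (x.ι i)).sh (⋃ π ∈ P₀, S.M.sys.inn π) (tr x.I.f' x.I.f s)
        (tr x.I.f' x.I.f s') ∧
      ∀ y, x.I.ψ y ∈ ⋃ π ∈ P, S'.M.sys.U π → y ∈ ⋃ π ∈ P₀, S.M.sys.U π := by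
  obtain ⟨h1, h2⟩ := h.inf ok ok' hF hF' hs.1
  have h3 := (h.inf ok ok' hF hF' hs'.1).1
  rw [e] at h1 h2
  have b := fun π k => (hP π k).bd_subset.trans h2
  refine ⟨S.M.cOf ((hF.ok _ ⟨_, h.l⟩).par _ h.l _ (h.dom hF hF' hs)), pl x.I.f x.I.f' '' P, rfl,
    h3.trans (e' ▸ h1.symm), ?_, tr_cases (f' := x.I.f) (fun a k => ?_) (fun a k _ => ?_) fun u _ => ?_,
    fun y k => ?_⟩
  · rintro _ ⟨π, k, rfl⟩
    exact h1.symm.subst (motive := (S.M.sys.Piece · _)) (x.sc.piece h2 (hP π k))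
  · rw [tr_f, tr_f]
    refine ag _ (k.imp (fun k y hy n => k _ ((hH a).1 (Sum.inl.inj n ▸ hy)) rfl) fun ⟨y, k1, k2⟩ => ?_)
    obtain ⟨k2, k3⟩ := (Sk.hd_eq (S := F.sk _) (r := 0) (n := 0) (a := .inl _)).1 k2
    obtain rfl := Sum.inl.inj k3
    obtain ⟨_, ⟨π, k4, rfl⟩, k5⟩ := mem_iUnion₂.1 k1
    exact ⟨_, mem_biUnion k4 ((x.sc.inn (b π k4) a).2 k5),
      (Sk.hd_eq (S := F'.sk _) (r := 0) (n := 0)).2 ⟨(hH a).2 k2, rfl⟩⟩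
  · rw [tr_out k, tr_out k]
  · exact ag (.inr u) (.inl fun _ _ => Sum.inr_ne_inl)
  · obtain ⟨π, k1, k2⟩ := mem_iUnion₂.1 k
    exact mem_biUnion (mem_image_of_mem _ k1) ((x.sc.U (b π k1) y).1 k2)

/-- **the new family is in the class** -/
theorem add_ok : (x.add F F').OK T := by
  refine re_ok hF' (fun _ _ ⟨_, _, e, e', h⟩ => e ▸ e' ▸ h.r) ?_ ?_ ?_ ?_ ?_
  · rintro _ _ ⟨i, τ, rfl, rfl, h⟩ ⟨a | u, b⟩ hb
    · obtain ⟨k1, k2⟩ := (F'.job _).mem_wb.1 hb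
      obtain ⟨a, ha, rfl⟩ := Finset.mem_map.1 (cel_none.1 k1)
      obtain rfl : b = false := by_contra fun n => by
        have := k2 (by simpa using n)
        rw [(Sk.hd_eq (S := F'.sk _) (r := j + 1 + N) (n := N)).2 ⟨cell_hard hF' h.r (cel_none.1 k1), rfl⟩] at this
        cases this
      classical
      exact mem_K.2 ⟨τ.erase a, (congrArg ce0 (Finset.map_erase _ _ _)).trans
        (Ins30.ce_erase _ (fun _ : Unit => some false) _).symm,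
        Finset.map_erase x.I.f τ a ▸ erase_mem hF h.l _, Finset.map_erase x.I.f' τ a ▸ erase_mem hF' h.r _⟩
    · cases ((F'.job _).mem_wb.1 hb).1
  · rintro _ ⟨_, i, τ, rfl, -, h⟩
    have a := hF.ok _ ⟨_, h.l⟩
    rw [t_eq]
    exact ⟨fun w => let ⟨V, k, e⟩ := a.tw w; let ⟨V', k', e'⟩ := tok_aux hF hF' hH V e
        ⟨V', (x.tp_in i k').tm k, e'⟩, fun w => (a.co w).comp contDiff_tr,
      fun l w => let ⟨V, k, e⟩ := a.tc _ w; let ⟨V', k', e'⟩ := tok_aux hF hF' hH V e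
        ⟨V', (x.tp_in i k').xi k, e'⟩, fun l w => (a.cc _ w).comp contDiff_tr⟩
  · rintro _ ⟨_, i, τ, rfl, -, h⟩
    have a := hF.loc _ ⟨_, h.l⟩
    rw [t_eq]
    refine ⟨fun σ hσ s hs s' hs' c e e' P hP ag l hl w => ?_,
      fun σ hσ s hs s' hs' c e e' P hP ag w => ?_, fun w => bas_tm (a.bas w)⟩ <;>
      obtain ⟨τ, rfl, h⟩ := mem_K.1 hσ <;>
      obtain ⟨c₀, P₀, k1, k2, k3, k4, k5⟩ := loc_aux ok ok' hF hF' hH h hs hs' e e' hP ag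
    · exact a.cc _ h.l _ (h.dom hF hF' hs) _ (h.dom hF hF' hs') c₀ k1 k2 P₀ k3 k4 _
        (fun y hy => k5 y (hl ((x.η.apply_symm_apply l ▸ x.sd_ls (x.η.symm l) false y).2 hy))) w
    · exact (a.co _ h.l _ (h.dom hF hF' hs) _ (h.dom hF hF' hs') c₀ k1 k2 P₀ k3 k4 w).imp_right
        (x.tp_van i fun y hy => k5 _ ((x.rinv y).symm ▸ hy))
  · rintro _ _ ⟨i, τ, rfl, rfl, h⟩ s hs l e w
    obtain ⟨l, rfl⟩ := x.η.surjective l
    obtain ⟨a, k1, k2⟩ := x.ls l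
    have v := hF.van _ _ h.l _ (tr_cl hs) l (k1 ▸ (tr_f a).trans (k2 ▸ e)) w
    have m := x.tp_in i fun y => (x.sd_ls l true y).2
    rw [t_eq]
    exact ⟨fun k => m.tm (v.1 k), fun l' n k => m.xi (v.2 _ (fun k => n (x.η.symm_apply_eq.1 k)) k)⟩
  · rintro _ l _ ⟨i, τ, rfl, rfl, h⟩ h' s hs e w
    obtain ⟨l, rfl⟩ := x.η.surjective l
    obtain ⟨a, k1, k2⟩ := x.ls l
    obtain ⟨i₁, k3, k4, k5⟩ := x.fl l i
    rw [← k4] at h' ⊢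
    obtain ⟨τ', k6, h₁⟩ := mem_K.1 h'
    obtain rfl := Finset.map_injective _ (cel_inj k6)
    have e' : tr x.I.f' x.I.f s (.inl l) = 1 := k1 ▸ (tr_f a).trans (k2 ▸ e)
    have v := hF.van _ _ h.l _ (tr_cl hs) l e' w
    have u := hF.twin _ l _ h.l (k3 ▸ h₁.l) _ (tr_cl hs) e' w
    have k5 : EqOn (fun y => rl (x.w i₁ y)) (fun y => rl (x.w i y)) _ := fun y k => congrArg rl (k5 k)
    rw [t_eq, t_eq, k3]
    refine ⟨⟨u.1.1, fun k => (congrArg _ (u.1.2 k)).trans (tm_congr k5 (v.1 k))⟩, fun l' n => ?_⟩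
    have n' : x.η.symm l' ≠ l := fun k => n (x.η.symm_apply_eq.1 k)
    exact ⟨(u.2 _ n').1, fun k => (congrArg _ ((u.2 _ n').2 k)).trans (tc_congr k5 (v.2 _ n' k))⟩

end Cx

end Crest.Agent.X212.Nat75
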