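import Crest.Agent.X212.Nat75.Main
import Crest.Agent.X212.Ins26.Main

/-!
# Row 212, INST (helper75): naturality of the count; the axioms of the theory without the leaf NAT
-/

set_option autoImplicit false
set_option linter.unusedSectionVars false
noncomputable section
open Set Function Filter

namespace Crest.Agent.X212.Nat75
open An M G75 Ins26
open Br55 (CN AxB)

variable {κ lam : Type} [Fintype κ] [Fintype lam] [DecidableEq lam] {Lm : LM κ lam}

/-- **the count is natural** -/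
theorem zn_nat (H : Core Lm) (hc : CutOK Lm) {S S' : Scene Lm} {j N d : ℕ} (m : Mt S S' univ)
    (c : Cn m.L₀ m.A₀) (hm : m.I.Glob) (h : CN S d (m.l ∅ c)) (h' : CN S' d (m.r c)) :
    ZN S j N d (m.l ∅ c) = ZN S' j N d (m.r c) := by
  by_cases h0 : c = 0
  · rw [ZN, ZN, if_neg fun k => k.1 (by simp [h0, Cn.pj, Cn.lx]),
      if_neg fun k => k.1 (by simp [h0, Cn.pj, Cn.lx])]
  obtain ⟨T, k1, k2, k3⟩ := ((H.eval S j N d _ h).and ((H.eval S' j N d _ h').and ev_lt)).exists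
  obtain ⟨F, F', e, a, a', n, n', s, s', r⟩ := nat hc H.dat H.ex S S' m j N d c hm h h' h0 T k3
  obtain ⟨q, e1, e2⟩ := ((Nd18.GV.comap (k1 F a n _ s) e).and (k2 F' a' n' _ s')).ex
  rw [← e1, ← e2, Fam.val_pj, Fam.val_pj]
  refine sum_congr_ne c fun i σ k => ?_
  have t := s _ _ ((pj_map m.ι i σ).trans_ne k)
  have t' := s' _ _ ((pj_map m.ι' i σ).trans_ne k)
  rw [Finset.union_empty, Finset.union_empty]
  exact congrArg _ (H.cnt _ _ _ _ _ _ _ _ _ _ _ _ _ _ _ _ _ _ _ _ _ _ _ _ e (a.ok _ ⟨_, t⟩)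
    (a'.ok _ ⟨_, t'⟩) t t' (r i σ k) q)

/-- **INST** without `NatStmt` -/
theorem inst (T : Th Lm) (H : Core Lm) (hc : CutOK Lm) (hR : RfStmt T) (hF : FactStmt T)
    (hV : NvStmt T) : AxB (th T) where
  add S j d c c' h h' :=
    let ⟨_, e1, e2, e3⟩ := ((ev_Z S j d c).and ((ev_Z S j d c').and (ev_Z S j d (c + c')))).exists
    e3.symm.trans ((H.add h h').trans (congrArg₂ _ e1 e2))
  stk _ _ _ _ h1 h2 h := Z_eq (.of_forall fun _ => H.stk h1 h2 h)
  nat S S' m j d c hm h h' :=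
    let ⟨_, e1, e2⟩ := ((ev_Z S j d _).and (ev_Z S' j d _)).exists
    e1.symm.trans ((zn_nat H hc m c hm h h').trans e2)
  rf S S' R e e' m R₀ j d c h1 h2 h3 h4 h5 h6 :=
    let ⟨N, e1, e2⟩ := ((ev_Z S j (d + 1) _).and (ev_Z S' j d _)).exists
    e1.symm.trans ((hR S S' R e e' m R₀ j N d c h1 h2 h3 h4 h5 h6).trans e2)
  fact y := (hF y).imp fun _ k S j d c h1 h2 => Z_eq (k S j d c h1 h2)
  nv S i h1 h2 := (hV S i h1 h2).imp fun _ k e => one_ne_zero ((Z_eq k).symm.trans e)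

end Crest.Agent.X212.Nat75
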