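import Crest.Agent.X212.Nat75.Cx
import Crest.Agent.X212.G75.Dat

/-!
# Row 212, INST (helper75): the leaves DAT and NAT
-/

set_option autoImplicit false
set_option linter.unusedSectionVars false
noncomputable section
open scoped Manifold ContDiff Topology
open Set Function

namespace Crest.Agent.X212.Nat75
open An M G75 Jb7 Wrd81 Ins26
open An.Job (cl sp)
open Br55 (CN)
open Line51 (rl Ln)

section pj
variable {L A L' A' : Type} [Fintype L] [DecidableEq L] [Fintype A] [DecidableEq A]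
  [DecidableEq L'] [DecidableEq A'] {f : A ↪ A'} {c : Cn L A}

theorem pj_apply (ι : L → L') (i' : L') (σ' : Finset A') : Cn.pj ι f ∅ c i' σ' =
    ∑ i, ∑ σ, if ι i = i' ∧ σ.map f = σ' then c i σ else 0 := by
  simp only [Cn.pj, Cn.lx, Cn.gen, Finset.sum_apply, Pi.smul_apply, Finset.union_empty]
  refine Finset.sum_congr rfl fun i _ => Finset.sum_congr rfl fun σ _ => ?_
  by_cases h : ι i = i'
  · subst h
    simp [Pi.single_apply, eq_comm]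
  · simp [h]

theorem pj_ne {ι : L → L'} {i' : L'} {σ' : Finset A'} (h : Cn.pj ι f ∅ c i' σ' ≠ 0) :
    ∃ i σ, c i σ ≠ 0 ∧ ι i = i' ∧ σ.map f = σ' := by
  rw [pj_apply] at h
  obtain ⟨i, -, h⟩ := Finset.exists_ne_zero_of_sum_ne_zero h
  obtain ⟨σ, -, h⟩ := Finset.exists_ne_zero_of_sum_ne_zero h
  exact ⟨i, σ, (ite_ne_right_iff.1 h).2, (ite_ne_right_iff.1 h).1⟩

theorem pj_map (ι : L ↪ L') (i : L) (σ : Finset A) : Cn.pj ι f ∅ c (ι i) (σ.map f) = c i σ := by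
  simp [pj_apply, ite_and]

theorem exists_eqv {s : Finset A} {t : Finset A'} (h : t = s.map f) : ∃ e : s ≃ t, ∀ a : s, ↑(e a) = f a :=
  ⟨.ofBijective (fun a => ⟨f a, h ▸ Finset.mem_map_of_mem f a.2⟩)
    ⟨fun _ _ e => Subtype.ext (f.injective (congrArg Subtype.val e)), fun a =>
      let ⟨b, k, e⟩ := Finset.mem_map.1 (h ▸ a.2 : a.1 ∈ s.map f); ⟨⟨b, k⟩, Subtype.ext e⟩⟩, fun _ => rfl⟩

end pj

variable {κ lam : Type} [Fintype κ] [Fintype lam] [DecidableEq lam] {Lm : LM κ lam}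
  {S S' : Scene Lm} {j N : ℕ} {T : ℝ}

/-- **LEAF DAT** -/
theorem dat (hL : EqOn ((Lm.b true).b 0) ((Lm.b false).b 0) (hf Lm.M () true)) : DatStmt Lm :=
  fun _ ok i => Scene.exists_dat ok i hL

/-- **the two families correspond** -/
theorem Cx.cor {A₀ L₀ : Type} [Fintype A₀] {x : Cx S S' A₀ L₀} {F : Fam S j N} {F' : Fam S' j N}
    (ok : S.OK) (ok' : S'.OK) (hF : F.OK T) (hF' : F'.OK T) (hn : F'.n₀ = F.n₀) {i : L₀} {τ : Finset A₀}
    (h : x.Mc F F' i τ)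
    (hc : ∀ l, (S.ct (x.ι i) l).Rel (S'.ct (x.ι' i) (x.η l)) univ x.I.ψ fun y => rl (x.w i y))
    (hD : ∀ s ∈ ub (F.job (x.ι i)) (ce0 (τ.map x.I.f)), (∀ y, Met55.Co (fun n => Dr59.mf S.X.I S'.X.I x.I.ψ y
        (F.D.W.k ((F.job (x.ι i)).Θ s) y n)) (F'.D.W.k ((F'.job (x.ι' i)).Θ (tr x.I.f x.I.f' s)) (x.I.ψ y))) ∧
      Line51.Iso S.X.I ⟨(S.N (x.ι i)).p, (F.D.Λ (x.ι i)).a0 ((F.job (x.ι i)).Θ s)⟩ (Ln.pull S.X.I S'.X.I x.I.ψ
        ⟨(S'.N (x.ι' i)).p, (F'.D.Λ (x.ι' i)).a0 ((F'.job (x.ι' i)).Θ (tr x.I.f x.I.f' s))⟩) (x.w i) univ) :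
    Cor ((x.symm.add F' F).job (x.ι i)) (ce0 (τ.map x.I.f)) ((x.add F F').job (x.ι' i))
      (ce0 (τ.map x.I.f')) (Equiv.sumComm _ _).toEmbedding := by
  have e : x.symm.t F' (x.ι i) = _ := x.symm.t_eq F' i
  have e' := x.t_eq F i
  refine ⟨x.I.ψ, x.w i, tr x.I.f x.I.f', x.η, x.gl.1, x.gl.2, x.gl.1 ▸ x.I.ori,
    InvOn.bijOn (f' := tr x.I.f' x.I.f) ⟨fun s k => tr_tr k.1.1, fun s k => tr_tr k.1.1⟩
      (fun s k => ⟨tr_cl k.1, (h.symm.inf ok' ok hF' hF k.1.1).1.trans ?_⟩)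
      fun s k => ⟨tr_cl k.1, (h.inf ok ok' hF hF' k.1.1).1.trans ?_⟩,
    fun s k => (hD s k).1, fun s k => (hD s k).2, (congrArg _ hn).trans (x.kz_eq i j _), hc,
    fun s k v => ?_, fun s k l v => ?_, fun s _ v n => (n ⟨v.swap, v.swap_swap⟩).elim,
    fun _ _ _ => .inr ⟨Ink3.nd0_nil, rfl⟩, fun _ _ _ => .inr ⟨Ink3.nd0_nil, rfl⟩⟩
  · exact (congrArg (fun V => _ '' (_ ⁻¹' V)) k.2).trans (image_empty _)
  · exact (congrArg (fun V => _ '' (_ ⁻¹' V)) k.2).trans (image_empty _)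
  · show ((F'.t _).sum (x.t F _)).co v.swap _ = ((F.t _).sum (x.symm.t F' _)).co v s ∧ (_ →
      Eqv71.TmR _ _ _ (((F.t _).sum (x.symm.t F' _)).tw v) (((F'.t _).sum (x.t F _)).tw v.swap))
    rw [e, e']
    cases v
    exacts [⟨congrArg ((F.t _).co _) (tr_tr k.1.1), fun _ => (x.tp_rel i).tm _⟩,
      ⟨rfl, fun _ => (x.tp_relI i).tm _⟩]
  · show ((F'.t _).sum (x.t F _)).cc _ v.swap _ = ((F.t _).sum (x.symm.t F' _)).cc l v s ∧ (_ →
      Cnt93.TcR _ _ _ (((F.t _).sum (x.symm.t F' _)).tc l v) (((F'.t _).sum (x.t F _)).tc _ v.swap))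
    rw [e, e']
    obtain ⟨l, rfl⟩ := x.η.symm.surjective l
    rw [x.η.apply_symm_apply]
    cases v
    exacts [⟨congrArg ((F.t _).cc _ _) (tr_tr k.1.1), fun _ => rel_tc (x.tp_rel i) _⟩,
      ⟨congrArg ((F'.t _).cc · _ _) (x.η.apply_symm_apply l).symm, fun _ =>
        (x.η.apply_symm_apply l).subst (motive := fun a => Cnt93.TcR _ _ _ _ ((F'.t _).tc a _))
          ((x.tp_relI i).tc _)⟩]

variable (m : Mt S S' univ)

theorem ls_eq : S.ls = m.ls.map m.I.f :=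
  Finset.Subset.antisymm (fun l hl => (m.lin l hl).2 (subset_univ _)) m.lsub

/-- the correspondence of an identification -/
@[reducible] def cx (hm : m.I.Glob) (η : S.ls ≃ S'.ls)
    (hη : ∀ l : S.ls, ∃ a ∈ m.ls, m.I.f a = l ∧ m.I.f' a = η l) : Cx S S' m.A₀ m.L₀ where
  I := m.I
  gl := hm
  ι := m.ι
  ι' := m.ι'
  w := m.w
  lid := m.lid
  η := η
  ls l := (hη l).imp fun _ => And.right
  fl l i := by
    obtain ⟨a, h, h1, h2⟩ := hη l
    rw [← h1, ← h2]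
    exact ⟨_, (m.hfl a h i).1, (m.hfl a h i).2.1, fun _ k => (m.hfl a h i).2.2.2.1 ⟨trivial, .inl k⟩⟩

/-- walls that are frozen only on the right are not matched -/
def res (ok' : S'.OK) : Mt S S' univ :=
  have e : (m.ls.subtype fun a => m.I.f' a ∈ S'.fz → m.I.f a ∈ S.fz).map (.subtype _) = m.ls :=
    Finset.subtype_map_of_mem fun _ h k => ((ok'.fz _ k).2.1 (m.ls' ▸ Finset.mem_map_of_mem _ h)).elim
  { A₀ := {a // m.I.f' a ∈ S'.fz → m.I.f a ∈ S.fz}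
    L₀ := m.L₀
    I := m.I.re (.subtype _)
    ι := m.ι
    ι' := m.ι'
    w := m.w
    lid := fun i => (m.lid i).re _
    ls := m.ls.subtype _
    ls' := m.ls'.trans ((congrArg _ e.symm).trans (Finset.map_map _ _ _))
    lsub := ((Finset.map_map _ _ _).symm.trans (congrArg _ e)).le.trans m.lsub
    lin := fun l h => ((Finset.map_map _ _ _).symm.trans (congrArg (Finset.map m.I.f) e)).symm ▸ m.lin l h
    fl := fun a => m.fl a
    hfl := fun a h => m.hfl a (Finset.mem_subtype.1 h)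
    mod := fun a => m.mod a
    fz := fun a h => let ⟨b, k, k'⟩ := m.fz a h; ⟨⟨b, fun _ => k ▸ h⟩, k, k'⟩ }

theorem ex_fam (he : ExStmt Lm) (hT : T < 1) {d : ℕ} {c : Cn S.L S.A} (h : CN S d c) (D : S.Dat) :
    ∃ F : Fam S j N, F.OK T ∧ F.D = D ∧ F.X = ∅ ∧ F.n₀ = -d ∧ F.uf = 0 ∧ (F.Tf = fun _ _ => max T 0) ∧
      F.Sub c (some false) :=
  let ⟨F, a, b, c, _, e, f⟩ := he S j N D ∅ ⟨S.ls, fun l hl l' hl' n =>
      (h.ok.lsd l hl l' hl' n).mono subset_union_right subset_union_right⟩ (-d) (fun i => {σ | c i σ ≠ 0})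
    h.ok (Finset.disjoint_empty_left _) (fun _ k n => (k.resolve_left n).resolve_right nofun)
    (fun i σ k => let ⟨k1, k2, k3⟩ := h.cl.mem i σ k
      ⟨k1, h.ns i σ k, fun a l => (k3 a l).imp_right .inl, by omega⟩) T hT
  ⟨F, a, b, c, e, f⟩

/-- **LEAF NAT** -/
theorem nat (hc : CutOK Lm) (hd : DatStmt Lm) (he : ExStmt Lm) (S S' : Scene Lm) (m : Mt S S' univ)
    (j N d : ℕ) (c : Cn m.L₀ m.A₀) (hm : m.I.Glob) (h : CN S d (m.l ∅ c)) (h' : CN S' d (m.r c))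
    (h0 : c ≠ 0) (T : ℝ) (hT : T < 1) :
    ∃ (F : Fam S j N) (F' : Fam S' j N) (e : F.Wi ↪ F'.Wi), F.OK T ∧ F'.OK T ∧ F.n₀ = -d ∧
      F'.n₀ = -d ∧ F.Sub (m.l ∅ c) (some false) ∧ F'.Sub (m.r c) (some false) ∧ ∀ i σ, c i σ ≠ 0 →
        Cor (F.job (m.ι i)) (cel (σ.map m.I.f) (some false))
          (F'.job (m.ι' i)) (cel (σ.map m.I.f') (some false)) e := by
  classical
  obtain ⟨i₀, -⟩ := Function.ne_iff.1 h0
  obtain ⟨D₀⟩ := hd S h.ok (m.ι i₀)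
  obtain ⟨D'⟩ := hd S' h'.ok (m.ι' i₀)
  have hT' : max T 0 < 1 := max_lt hT one_pos
  obtain ⟨D, -, hD⟩ := Scene.dat_pull (res m h'.ok) hm h.ok h'.ok i₀ D₀.bs D' D₀.W.toCaps
    (p := fun _ => (0, fun a => if a ∈ S'.fz ∧ a ∉ range (res m h'.ok).I.f' then max T 0 else 0))
    contDiff_const (fun _ => ⟨fun a => by dsimp only; split_ifs <;> simp [hT'.le],
      h'.ok.fzc.mono fun a k => (ite_ne_right_iff.1 k).1.1⟩)
    (fun _ a => by dsimp only; split_ifs <;> simp [hT']) fun _ a k => (ite_ne_right_iff.1 k).1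
  obtain ⟨F, hF, rfl, a1, a2, a3, a4, a5⟩ := ex_fam (j := j) (N := N) he hT h D
  obtain ⟨F', hF', rfl, b1, b2, b3, b4, b5⟩ := ex_fam (j := j) (N := N) he hT h' D'
  obtain ⟨e, e1⟩ := exists_eqv (ls_eq m)
  obtain ⟨e', e2⟩ := exists_eqv m.ls'
  have hη : ∀ l : S.ls, ∃ a ∈ m.ls, m.I.f a = l ∧ m.I.f' a = e.symm.trans e' l := fun l =>
    ⟨e.symm l, (e.symm l).2, (e1 _).symm.trans (by simp), (e2 _).symm⟩
  let x := cx m hm _ hη
  have hH : ∀ a, m.I.f' a ∈ hard S' F'.X ↔ m.I.f a ∈ hard S F.X := fun a => by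
    rw [a1, b1]
    exact or_congr (m.I.pin a) (by simp [m.ls', ls_eq m])
  have mc : ∀ i σ, c i σ ≠ 0 → x.Mc F F' i σ := fun i σ k =>
    ⟨a5 _ _ ((pj_map m.ι i σ).trans_ne k), b5 _ _ ((pj_map m.ι' i σ).trans_ne k)⟩
  refine ⟨x.symm.add F' F, x.add F F', _, Cx.add_ok h'.ok h.ok hF' hF fun a => (hH a).symm,
    Cx.add_ok h.ok h'.ok hF hF' hH, a2, b2, fun _ _ k => ?_, fun _ _ k => ?_, fun i σ k =>
    Cx.cor h.ok h'.ok hF hF' (b2.trans a2.symm) (mc i σ k) (fun l => ?_) fun s hs => ?_⟩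
  · obtain ⟨i, σ, l, rfl, rfl⟩ := pj_ne k
    exact ⟨i, σ, rfl, rfl, (mc i σ l).symm⟩
  · obtain ⟨i, σ, l, rfl, rfl⟩ := pj_ne k
    exact ⟨i, σ, rfl, rfl, mc i σ l⟩
  · obtain ⟨a, k1, k2, k3⟩ := hη l
    obtain ⟨l, hl⟩ := l
    obtain rfl : m.I.f a = l := k2
    have := m.ct_rel h.ok h'.ok k1 hl (k3 ▸ (x.η _).2) hc i
    rwa [show (⟨m.I.f' a, _⟩ : S'.ls) = x.η ⟨_, hl⟩ from Subtype.ext k3] at this
  · have u := mc i σ k
    have hs' := tr_sp (f' := m.I.f') hs.1.1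
    have q : ∀ a ∈ σ, m.I.f' a ∉ S'.fz := fun a l => cell_fz hF' h'.ok u.r (Finset.mem_map_of_mem _ l)
    have := hD 0 _ ((hF.ok _ ⟨_, u.l⟩).par _ u.l s (Job.cl_dom _ hs.1)) _
      ((hF'.ok _ ⟨_, u.r⟩).par _ u.r _ (Job.cl_dom _ (tr_cl hs.1))) (fun a l => ?_) (fun a => ?_)
      fun a l => ?_
    · rw [show (F.job (x.ι i)).Θ s = (0, _) from Prod.ext (congrFun a3 _) rfl,
        show (F'.job (x.ι' i)).Θ _ = (0, _) from Prod.ext (congrFun b3 _) rfl]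
      exact ⟨fun y => this.1 y (by rw [show Sys.inf _ = ∅ from hs.2]; simp [Sys.cores]), this.2 i⟩
    · by_cases z : a ∈ S.fz
      · exact let ⟨b, z, _⟩ := (res m h'.ok).fz a z; ⟨b, z⟩
      · obtain ⟨a, n, rfl⟩ := Finset.mem_map.1 (by_contra fun n => l (th_out hs.1.1 z n) : a ∈ σ.map m.I.f)
        exact ⟨⟨a, fun z => (q a n z).elim⟩, rfl⟩
    · obtain ⟨a, l⟩ := a
      show ((F'.job _).Θ _).2 (m.I.f' a) = ((F.job _).Θ s).2 (m.I.f a)
      by_cases z : m.I.f a ∈ S.fz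
      · obtain ⟨b, z1, z2⟩ := m.fz _ z
        rw [th_fz hs.1.1 z, th_fz hs' (m.I.f.injective z1 ▸ z2), a4, b4]
      · by_cases n : a ∈ σ
        · rw [th_in hF h.ok u.l (Finset.mem_map_of_mem _ n), th_in hF' h'.ok u.r (Finset.mem_map_of_mem _ n),
            tr_f]
        · rw [th_out hs.1.1 z (mt (Finset.mem_map' _).1 n), th_out hs' (mt l z) (mt (Finset.mem_map' _).1 n)]
    · by_cases z : a ∈ S'.fz
      · exact (th_fz hs' z).trans ((congrFun₂ b4 _ _).trans (if_pos ⟨z, l⟩).symm)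
      · refine (th_out hs' z fun n => ?_).trans (if_neg fun k => z k.1).symm
        obtain ⟨a, n', rfl⟩ := Finset.mem_map.1 n
        exact l ⟨⟨a, fun z => (q a n' z).elim⟩, rfl⟩

end Crest.Agent.X212.Nat75
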